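import Crest.Agent.X262.Frm.Typ

-- ▼ part X262/Frm/Nrm
section

/-! Row 262, package Frm (helper58).  Nrm: `CF E` as a finite dimensional normed algebra; the
regularity predicate `CD` is `ContDiffAt`; continuity of the algebraic operations. -/

set_option autoImplicit false
set_option linter.unusedSectionVars false
set_option linter.unusedSimpArgs false

open scoped BigOperators ContDiff Topology
open Module

noncomputable section

namespace Crest.Agent.X262.Frm

open Crest.Agent.R208.F Crest.Agent.R208.CW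

section norm
variable (E : Type*) [AddCommGroup E] [Module ℝ E]

/-- real part, real linear -/
def reLm : CF E →ₗ[ℝ] Ext E := { toFun := Cx.re, map_add' := fun _ _ => rfl, map_smul' := fun _ _ => rfl }
/-- imaginary part, real linear -/
def imLm : CF E →ₗ[ℝ] Ext E := { toFun := Cx.im, map_add' := fun _ _ => rfl, map_smul' := fun _ _ => rfl }
/-- real forms as complex forms, real linear -/
def ofRLm : Ext E →ₗ[ℝ] CF E :=
  { toFun := Cx.ofR, map_add' := fun _ _ => map_add _ _ _, map_smul' := fun r a => ofR_smul r a }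
/-- conjugation, real linear -/
def conjLm : CF E →ₗ[ℝ] CF E :=
  { toFun := Cx.conj, map_add' := fun _ _ => map_add _ _ _, map_smul' := fun r a => conj_rsmul r a }

instance : Nontrivial (CF E) := ⟨0, 1, fun h => zero_ne_one (congrArg Cx.re h)⟩

variable [FiniteDimensional ℝ E]

instance instFinR : FiniteDimensional ℝ (CF E) :=
  Module.Finite.of_injective ((reLm E).prod (imLm E)) fun _ _ h =>
    Cx.ext (congrArg Prod.fst h) (congrArg Prod.snd h)

instance instFinC : FiniteDimensional ℂ (CF E) := Module.Finite.of_restrictScalars_finite ℝ ℂ _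

/-- the left regular representation -/
def rep : CF E →ₐ[ℂ] ((Fin (finrank ℂ (CF E)) → ℂ) →L[ℂ] (Fin (finrank ℂ (CF E)) → ℂ)) :=
  (Module.End.toContinuousLinearMap (Fin (finrank ℂ (CF E)) → ℂ)).toAlgHom.comp
    (((Module.finBasis ℂ (CF E)).equivFun.conjAlgEquiv ℂ).toAlgHom.comp (Algebra.lmul ℂ (CF E)))

theorem rep_injective : Function.Injective (rep E) :=
  (Module.End.toContinuousLinearMap (Fin (finrank ℂ (CF E)) → ℂ)).injective.comp
    (((Module.finBasis ℂ (CF E)).equivFun.conjAlgEquiv ℂ).injective.comp Algebra.lmul_injective)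

instance instNormedRing : NormedRing (CF E) := NormedRing.induced _ _ (rep E) (rep_injective E)

instance instNormedAlgC : NormedAlgebra ℂ (CF E) := NormedAlgebra.induced ℂ _ _ (rep E)

instance (priority := 1100) instNormedAlgR : NormedAlgebra ℝ (CF E) where
  norm_smul_le r a := by
    rw [rsmul_eq]
    simpa using norm_smul_le (r : ℂ) a

instance (priority := 1100) instNormedSpaceR : NormedSpace ℝ (CF E) := NormedAlgebra.toNormedSpace _

instance instNormedSpaceC : NormedSpace ℂ (CF E) := NormedAlgebra.toNormedSpace _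

instance : CompleteSpace (CF E) := FiniteDimensional.complete ℂ _

instance : NormOneClass (CF E) := ⟨by
  have : Nonempty (Fin (finrank ℂ (CF E))) := ⟨⟨0, Module.finrank_pos⟩⟩
  change ‖rep E 1‖ = 1
  rw [map_one, norm_one]⟩

end norm

section clm
variable {E F : Type*} [AddCommGroup E] [Module ℝ E] [FiniteDimensional ℝ E]
  [AddCommGroup F] [Module ℝ F] [FiniteDimensional ℝ F]
  {G H : Type*} [NormedAddCommGroup G] [NormedSpace ℝ G] [NormedAddCommGroup H]

variable (E) in
/-- real part, continuous -/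
def reL : CF E →L[ℝ] Ext E := LinearMap.toContinuousLinearMap (reLm E)
variable (E) in
/-- imaginary part, continuous -/
def imL : CF E →L[ℝ] Ext E := LinearMap.toContinuousLinearMap (imLm E)
variable (E) in
/-- real forms as complex forms, continuous -/
def ofRL : Ext E →L[ℝ] CF E := LinearMap.toContinuousLinearMap (ofRLm E)
variable (E) in
/-- conjugation, continuous -/
def conjL : CF E →L[ℝ] CF E := LinearMap.toContinuousLinearMap (conjLm E)

@[simp] theorem reL_apply (a : CF E) : reL E a = a.re := rfl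
@[simp] theorem imL_apply (a : CF E) : imL E a = a.im := rfl
@[simp] theorem ofRL_apply (a : Ext E) : ofRL E a = Cx.ofR a := rfl
@[simp] theorem conjL_apply (a : CF E) : conjL E a = Cx.conj a := rfl

/-- a complex linear map on forms as a continuous real linear map -/
def cl [NormedSpace ℝ H] [NormedSpace ℂ H] [IsScalarTower ℝ ℂ H] (T : CF E →ₗ[ℂ] H) : CF E →L[ℝ] H :=
  LinearMap.toContinuousLinearMap (T.restrictScalars ℝ)

@[simp] theorem cl_apply [NormedSpace ℝ H] [NormedSpace ℂ H] [IsScalarTower ℝ ℂ H]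
    (T : CF E →ₗ[ℂ] H) (a : CF E) : cl T a = T a := rfl


variable {k : WithTop ℕ∞} {om : G → CF E} {x : G}

theorem ContDiffAt.lin [NormedSpace ℝ H] [NormedSpace ℂ H] [IsScalarTower ℝ ℂ H]
    (T : CF E →ₗ[ℂ] H) (h : ContDiffAt ℝ k om x) :
    ContDiffAt ℝ k (fun y => T (om y)) x := (cl T).contDiff.contDiffAt.comp x h

theorem DifferentiableAt.lin [NormedSpace ℝ H] [NormedSpace ℂ H] [IsScalarTower ℝ ℂ H]
    (T : CF E →ₗ[ℂ] H) (h : DifferentiableAt ℝ om x) :
    DifferentiableAt ℝ (fun y => T (om y)) x := (cl T).differentiableAt.comp x h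

theorem fderiv_lin [NormedSpace ℝ H] [NormedSpace ℂ H] [IsScalarTower ℝ ℂ H]
    (T : CF E →ₗ[ℂ] H) (h : DifferentiableAt ℝ om x) (v : G) :
    fderiv ℝ (fun y => T (om y)) x v = T (fderiv ℝ om x v) := by
  have h1 : HasFDerivAt (fun y => T (om y)) ((cl T).comp (fderiv ℝ om x)) x :=
    (cl T).hasFDerivAt.comp x h.hasFDerivAt
  rw [h1.fderiv]; rfl





end clm

section clc
variable {E F G : Type*} [NormedAddCommGroup E] [NormedSpace ℝ E] [FiniteDimensional ℝ E]
  [NormedAddCommGroup F] [NormedSpace ℝ F] [FiniteDimensional ℝ F]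
  [NormedAddCommGroup G] [NormedSpace ℝ G] {k : WithTop ℕ∞} {om : G → CF E} {x : G}

/-- the regularity predicate of R208 is the usual one -/
theorem cd_iff : CD k om x ↔ ContDiffAt ℝ k om x := by
  refine ⟨fun h => ?_, fun h => ⟨(reL E).contDiff.contDiffAt.comp x h,
    (imL E).contDiff.contDiffAt.comp x h⟩⟩
  have : om = fun y => ofRL E (om y).re + Complex.I • ofRL E (om y).im :=
    funext fun y => eq_re_im (om y)
  rw [this]
  exact ((ofRL E).contDiff.contDiffAt.comp x h.re).add
    (((ofRL E).contDiff.contDiffAt.comp x h.im).const_smul Complex.I)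

alias ⟨CD.contDiffAt, ContDiffAt.cd⟩ := cd_iff

variable (E) in
/-- continuous covectors as forms -/
def ioL : (E →L[ℝ] ℂ) →L[ℝ] CF E :=
  LinearMap.toContinuousLinearMap
    { toFun := fun l => ioC (l : E →ₗ[ℝ] ℂ)
      map_add' := fun l m => by rw [← map_add]; rfl
      map_smul' := fun r l => by
        rw [RingHom.id_apply, rsmul_eq, ← map_smul]; rfl }

@[simp] theorem ioL_apply (l : E →L[ℝ] ℂ) : ioL E l = ioC (l : E →ₗ[ℝ] ℂ) := rfl


variable (E) in
/-- contraction, continuous bilinear -/
def iiCL : E →L[ℝ] CF E →L[ℝ] CF E :=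
  LinearMap.toContinuousLinearMap
    { toFun := fun v => cl (iiC v)
      map_add' := fun v w => by ext c : 1; simp
      map_smul' := fun r v => by ext c : 1; simp }

@[simp] theorem iiCL_apply (v : E) (c : CF E) : iiCL E v c = iiC v c := rfl




/-- the pull-back as a function of the linear map, with values in continuous linear maps -/
def pbCL (A : E →L[ℝ] F) : CF F →L[ℝ] CF E := cl (pbA (A : E →ₗ[ℝ] F)).toLinearMap

@[simp] theorem pbCL_apply (A : E →L[ℝ] F) (c : CF F) : pbCL A c = pbC (A : E →ₗ[ℝ] F) c := rfl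






/-- the exterior derivative in a basis -/
theorem dC_eq_sum {ι : Type*} [Fintype ι] (b : Basis ι ℝ E) {om : E → CF E} {x : E}
    (h : DifferentiableAt ℝ om x) :
    dC om x = ∑ i, ioC (ofD (b.coord i)) * fderiv ℝ om x (b i) := by
  have h1 : HasFDerivAt (fun y => (om y).re) ((reL E).comp (fderiv ℝ om x)) x :=
    (reL E).hasFDerivAt.comp x h.hasFDerivAt
  have h2 : HasFDerivAt (fun y => (om y).im) ((imL E).comp (fderiv ℝ om x)) x :=
    (imL E).hasFDerivAt.comp x h.hasFDerivAt
  refine Cx.ext ?_ ?_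
  · change d (fun y => (om y).re) x = _
    rw [d_of_hasFDerivAt h1, wd_basis b, Cx.sum_re]
    refine Finset.sum_congr rfl fun i _ => ?_
    simp [ioC_ofD]
  · change d (fun y => (om y).im) x = _
    rw [d_of_hasFDerivAt h2, wd_basis b, Cx.sum_im]
    refine Finset.sum_congr rfl fun i _ => ?_
    simp [ioC_ofD]












end clc

end Crest.Agent.X262.Frm
end
end

-- ▼ part X262/Frm/Dol

/-! Row 262, package Frm (helper58).  Dol: partial exterior derivatives `dP P`, in particular
`del` and `dbar` on a complex vector space. -/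

set_option autoImplicit false
set_option linter.unusedSectionVars false
set_option linter.unusedSimpArgs false

open scoped BigOperators ContDiff Topology
open Module Complex

noncomputable section

namespace Crest.Agent.X262.Frm

open Crest.Agent.R208.F Crest.Agent.R208.CW

section dP
variable {E F : Type*} [NormedAddCommGroup E] [NormedSpace ℝ E] [FiniteDimensional ℝ E]
  [NormedAddCommGroup F] [NormedSpace ℝ F] [FiniteDimensional ℝ F]

/-- `T ↦ ∑ P(eᵢ*) ∧ T eᵢ` -/
def wP (P : Module.End ℂ (W E)) : (E →L[ℝ] CF E) →L[ℝ] CF E :=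
  LinearMap.toContinuousLinearMap
    { toFun := fun T => ∑ i, ioC (P (ofD ((Module.finBasis ℝ E).coord i))) * T (Module.finBasis ℝ E i)
      map_add' := fun S T => by
        simp only [add_apply, mul_add, Finset.sum_add_distrib]
      map_smul' := fun r T => by
        simp only [smul_apply, mul_smul_comm, Finset.smul_sum, RingHom.id_apply] }

theorem wP_apply (P : Module.End ℂ (W E)) (T : E →L[ℝ] CF E) :
    wP P T = ∑ i, ioC (P (ofD ((Module.finBasis ℝ E).coord i))) * T (Module.finBasis ℝ E i) := rfl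

theorem W_sum {ι : Type*} [Fintype ι] (b : Basis ι ℝ E) (l : W E) :
    ∑ i, l (b i) • ofD (b.coord i) = l := by
  classical
  refine b.ext fun j => ?_
  simp [LinearMap.sum_apply, Finsupp.single_apply, apply_ite]

theorem wP_of_rank_one (P : Module.End ℂ (W E)) {T : E →L[ℝ] CF E} {l : W E} {c : CF E}
    (h : ∀ v, T v = l v • c) : wP P T = ioC (P l) * c := by
  rw [wP_apply]
  conv_rhs => rw [← W_sum (Module.finBasis ℝ E) l]
  simp only [h, map_sum, map_smul, Finset.sum_mul, mul_smul_comm, smul_mul_assoc]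





/-- partial exterior derivative -/
def dP (P : Module.End ℂ (W E)) (om : E → CF E) (x : E) : CF E := wP P (fderiv ℝ om x)

variable {P Q : Module.End ℂ (W E)} {om η : E → CF E} {x : E} {p q : ℕ}


theorem dP_one (h : DifferentiableAt ℝ om x) : dP 1 om x = dC om x :=
  (dC_eq_sum (Module.finBasis ℝ E) h).symm


theorem dP_of_hasFDerivAt (P : Module.End ℂ (W E)) {T : E →L[ℝ] CF E} (h : HasFDerivAt om T x) :
    dP P om x = wP P T := by rw [dP, h.fderiv]


theorem dP_congr (h : om =ᶠ[𝓝 x] η) : dP P om x = dP P η x := by rw [dP, dP, h.fderiv_eq]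


theorem dP_const (c : CF E) (x : E) : dP P (fun _ => c) x = 0 := by
  rw [dP_of_hasFDerivAt P (hasFDerivAt_const c x), map_zero]






/-- graded Leibniz rule -/
theorem dP_mul (h : DifferentiableAt ℝ om x) (h' : DifferentiableAt ℝ η x) :
    dP P (fun y => om y * η y) x = dP P om x * η x + invC (om x) * dP P η x := by
  rw [dP_of_hasFDerivAt P (h.hasFDerivAt.fun_mul' h'.hasFDerivAt), dP, dP, wP_apply, wP_apply, wP_apply,
    Finset.sum_mul, Finset.mul_sum, ← Finset.sum_add_distrib]
  refine Finset.sum_congr rfl fun i _ => ?_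
  simp only [add_apply, smul_apply, smul_eq_mul,
    MulOpposite.smul_eq_mul_unop, MulOpposite.unop_op, mul_add]
  rw [← mul_assoc, ioC_mul, add_comm, mul_assoc, mul_assoc]

theorem dP_algebraMap {g : E → ℂ} (hg : DifferentiableAt ℝ g x) :
    dP P (fun y => algebraMap ℂ (CF E) (g y)) x
      = ioC (P ((fderiv ℝ g x : E →L[ℝ] ℂ) : E →ₗ[ℝ] ℂ)) := by
  simp only [Algebra.algebraMap_eq_smul_one]
  rw [dP_of_hasFDerivAt P (hg.hasFDerivAt.smul_const (1 : CF E)),
    wP_of_rank_one P (l := ((fderiv ℝ g x : E →L[ℝ] ℂ) : E →ₗ[ℝ] ℂ)) (c := 1) fun v => rfl, mul_one]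

theorem differentiableAt_algebraMap {G : Type*} [NormedAddCommGroup G] [NormedSpace ℝ G] {g : G → ℂ}
    {x : G} (hg : DifferentiableAt ℝ g x) :
    DifferentiableAt ℝ (fun y => algebraMap ℂ (CF E) (g y)) x := by
  simp only [Algebra.algebraMap_eq_smul_one]
  exact hg.smul_const _

theorem dP_smul {g : E → ℂ} (hg : DifferentiableAt ℝ g x) (h : DifferentiableAt ℝ om x) :
    dP P (fun y => g y • om y) x
      = ioC (P ((fderiv ℝ g x : E →L[ℝ] ℂ) : E →ₗ[ℝ] ℂ)) * om x + g x • dP P om x := by
  simp only [Algebra.smul_def]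
  rw [dP_mul (differentiableAt_algebraMap hg) h, dP_algebraMap hg, invC_algebraMap]

theorem dC_algebraMap {g : E → ℂ} (hg : DifferentiableAt ℝ g x) :
    dC (fun y => algebraMap ℂ (CF E) (g y)) x = ioC ((fderiv ℝ g x : E →L[ℝ] ℂ) : E →ₗ[ℝ] ℂ) := by
  rw [← dP_one (differentiableAt_algebraMap hg), dP_algebraMap hg]; rfl

theorem dC_smul {g : E → ℂ} (hg : DifferentiableAt ℝ g x) (h : DifferentiableAt ℝ om x) :
    dC (fun y => g y • om y) x
      = ioC ((fderiv ℝ g x : E →L[ℝ] ℂ) : E →ₗ[ℝ] ℂ) * om x + g x • dC om x := by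
  rw [← dP_one (hg.fun_smul h), dP_smul hg h, dP_one h]; rfl








theorem prj_dP_left (hP : P * P = P) (h : DifferentiableAt ℝ om x) (p q : ℕ) :
    prj P (p + 1) q (dP P om x) = dP P (fun y => prj P p q (om y)) x := by
  rw [dP, dP, wP_apply, wP_apply, map_sum]
  refine Finset.sum_congr rfl fun i _ => ?_
  have := prj_mul_left (Ty_ioC_10 (idem_apply hP (ofD ((finBasis ℝ E).coord i)))) p q
    (fderiv ℝ om x (finBasis ℝ E i))
  rw [add_comm 1, zero_add] at this
  rw [this, fderiv_lin _ h]










theorem Ty_dP_left (hP : P * P = P) (h : DifferentiableAt ℝ om x)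
    (ht : ∀ᶠ y in 𝓝 x, om y ∈ Ty P p q) : dP P om x ∈ Ty P (p + 1) q := by
  rw [mem_Ty_iff hP, prj_dP_left hP h]
  exact dP_congr (ht.mono fun y hy => prj_self hy)






end dP

section dol
variable {E F : Type*} [NormedAddCommGroup E] [NormedSpace ℝ E] [FiniteDimensional ℝ E]
  [NormedSpace ℂ E] [IsScalarTower ℝ ℂ E]
  [NormedAddCommGroup F] [NormedSpace ℝ F] [FiniteDimensional ℝ F]
  [NormedSpace ℂ F] [IsScalarTower ℝ ℂ F]

variable (E) in
/-- the projection defining the Hodge types on a complex vector space -/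
abbrev Pc : Module.End ℂ (W E) := P10 (Jc E)

variable (E) in
theorem Pc_idem : Pc E * Pc E = Pc E := (isJ_Jc E).idem

/-- the operator `∂` -/
def del (om : E → CF E) (x : E) : CF E := dP (Pc E) om x


variable {om η : E → CF E} {x : E} {p q : ℕ}

theorem IsType.del (h : DifferentiableAt ℝ om x) (ht : ∀ᶠ y in 𝓝 x, IsType (Jc E) p q (om y)) :
    IsType (Jc E) (p + 1) q (del om x) := Ty_dP_left (Pc_idem E) h ht

/-- the real differential of a holomorphic map is complex linear -/
theorem fderiv_J {f : E → F} (hf : DifferentiableAt ℂ f x) (v : E) :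
    ((fderiv ℝ f x : E →L[ℝ] F) : E →ₗ[ℝ] F) (Jc E v)
      = Jc F (((fderiv ℝ f x : E →L[ℝ] F) : E →ₗ[ℝ] F) v) := by
  rw [(hf.hasFDerivAt.restrictScalars ℝ).fderiv]; simp


theorem IsType.pullC {f : E → F} (hf : DifferentiableAt ℂ f x) {om : F → CF F}
    (h : IsType (Jc F) p q (om (f x))) : IsType (Jc E) p q (pullC f om x) :=
  IsType.pbC (fderiv_J hf) h









end dol

end Crest.Agent.X262.Frm
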