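import Crest.Agent.R208.CW0b

-- ▼ part X262/Frm/Alg
section

/-! Row 262, package Frm (helper58).  Alg: complex covectors in `CF E`, induction, universal
property, functoriality in complex covector maps, contraction, conjugation. -/

set_option autoImplicit false
set_option linter.unusedSectionVars false
set_option linter.unusedSimpArgs false

open scoped BigOperators
open Module

noncomputable section

namespace Crest.Agent.X262.Frm

open Crest.Agent.R208.F Crest.Agent.R208.CW

/-- the real module structure of `Cx R` is the one of its real algebra structure (without this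
instance `Module.complexToReal` is found, which is not definitionally the same) -/
instance (priority := 1100) modR {R : Type*} [Ring R] [Algebra ℝ R] : Module ℝ (Cx R) :=
  Algebra.toModule

instance {R : Type*} [Ring R] [Algebra ℝ R] : SMulCommClass ℝ ℂ (Cx R) := ⟨fun r z a => by
  refine Cx.ext ?_ ?_
  · simp only [Cx.smul_re, Cx.smul_im, Cx.csmul_re, smul_sub, smul_comm r]
  · simp only [Cx.smul_re, Cx.smul_im, Cx.csmul_im, smul_add, smul_comm r]⟩

instance {R : Type*} [Ring R] [Algebra ℝ R] : SMulCommClass ℂ ℝ (Cx R) := SMulCommClass.symm _ _ _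

/-- complex valued real covectors -/
abbrev W (E : Type*) [AddCommGroup E] [Module ℝ E] := E →ₗ[ℝ] ℂ

section basic
variable {E F G : Type*} [AddCommGroup E] [Module ℝ E] [AddCommGroup F] [Module ℝ F]
  [AddCommGroup G] [Module ℝ G]

/-- a complex covector as a complex form -/
def ioC : W E →ₗ[ℂ] CF E where
  toFun l := ⟨io (Complex.reLm ∘ₗ l), io (Complex.imLm ∘ₗ l)⟩
  map_add' l m := by
    refine Cx.ext ?_ ?_ <;> simp [LinearMap.comp_add]
  map_smul' z l := by
    refine Cx.ext ?_ ?_
    · simp only [RingHom.id_apply, Cx.csmul_re]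
      rw [← map_smul, ← map_smul, ← map_sub]; congr 1
    · simp only [RingHom.id_apply, Cx.csmul_im]
      rw [← map_smul, ← map_smul, ← map_add]; congr 1

theorem ioC_re (l : W E) : (ioC l).re = io (Complex.reLm ∘ₗ l) := rfl
theorem ioC_im (l : W E) : (ioC l).im = io (Complex.imLm ∘ₗ l) := rfl

/-- a real covector as a complex covector -/
def ofD : Module.Dual ℝ E →ₗ[ℝ] W E := LinearMap.llcomp ℝ E ℝ ℂ Complex.ofRealAm.toLinearMap

@[simp] theorem ofD_apply (l : Module.Dual ℝ E) (v : E) : ofD l v = (l v : ℂ) := rfl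

theorem ioC_ofD (l : Module.Dual ℝ E) : ioC (ofD l) = Cx.ofR (io l) := by
  refine Cx.ext ?_ ?_
  · rw [ioC_re, Cx.ofR_re]; congr 1
  · rw [ioC_im, Cx.ofR_im]
    have : Complex.imLm ∘ₗ ofD l = 0 := by ext v; simp
    rw [this, map_zero]

theorem W_eq (l : W E) : l = ofD (Complex.reLm ∘ₗ l) + Complex.I • ofD (Complex.imLm ∘ₗ l) := by
  ext v
  simp [mul_comm Complex.I]

theorem invC_ioC (l : W E) : invC (ioC l) = - ioC l := by
  refine Cx.ext ?_ ?_ <;> simp [ioC_re, ioC_im, inv_io]

theorem ioC_mul (l : W E) (c : CF E) : ioC l * c = invC c * ioC l := odd_commC (invC_ioC l) c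

theorem ioC_anti (l m : W E) : ioC l * ioC m = - (ioC m * ioC l) := by
  rw [ioC_mul, invC_ioC, neg_mul]

theorem ioC_sq (l : W E) : ioC l * ioC l = 0 := by
  have h := ioC_anti l l
  have h2 : (2 : ℂ) • (ioC l * ioC l) = 0 := by rw [two_smul]; nth_rewrite 1 [h]; exact neg_add_cancel _
  exact (smul_eq_zero.1 h2).resolve_left two_ne_zero

theorem ioC_add_swap (l m : W E) : ioC l * ioC m + ioC m * ioC l = 0 := by
  rw [ioC_anti, neg_add_cancel]

theorem eq_re_im (a : CF E) : a = Cx.ofR a.re + Complex.I • Cx.ofR a.im := by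
  refine Cx.ext ?_ ?_ <;> simp

theorem ofR_algebraMap (r : ℝ) : (Cx.ofR (algebraMap ℝ (Ext E) r) : CF E) = algebraMap ℂ (CF E) r :=
  (Cx.algebraMap_ofReal r).symm

theorem ofR_smul (r : ℝ) (a : Ext E) : (Cx.ofR (r • a) : CF E) = r • Cx.ofR a := by
  refine Cx.ext ?_ ?_ <;> simp

theorem rsmul_eq (r : ℝ) (a : CF E) : r • a = (r : ℂ) • a := by
  refine Cx.ext ?_ ?_
  · rw [Cx.smul_re, Cx.csmul_re]; simp
  · rw [Cx.smul_im, Cx.csmul_im]; simp

/-- left induction principle for complex forms -/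
theorem indC {P : CF E → Prop} (h0 : ∀ z : ℂ, P (algebraMap ℂ (CF E) z))
    (hadd : ∀ x y, P x → P y → P (x + y)) (hmul : ∀ x l, P x → P (ioC l * x)) (c : CF E) : P c := by
  have key : ∀ a : Ext E, ∀ z : ℂ, P (z • Cx.ofR a) := by
    intro a
    induction a using ind with
    | h0 r => intro z; rw [ofR_algebraMap, Algebra.smul_def, ← map_mul]; exact h0 _
    | hadd x y hx hy => intro z; rw [map_add, smul_add]; exact hadd _ _ (hx z) (hy z)
    | hmul x l hx =>
      intro z
      rw [map_mul, ← ioC_ofD, ← mul_smul_comm]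
      exact hmul _ _ (hx z)
  rw [eq_re_im c]
  refine hadd _ _ ?_ (key _ _)
  have := key c.re 1
  rwa [one_smul] at this

/-- two complex algebra maps out of `CF E` agree if they agree on covectors -/
theorem algHom_extC {A : Type*} [Semiring A] [Algebra ℂ A] {f g : CF E →ₐ[ℂ] A}
    (h : ∀ l, f (ioC l) = g (ioC l)) : f = g := by
  refine AlgHom.ext fun c => ?_
  induction c using indC with
  | h0 z => rw [AlgHom.commutes, AlgHom.commutes]
  | hadd x y hx hy => rw [map_add, map_add, hx, hy]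
  | hmul x l hx => rw [map_mul, map_mul, hx, h]

section lift
variable {A : Type*} [Ring A] [Algebra ℂ A]

/-- complex linear extension of a real algebra map -/
def cxLift (φ : Ext E →ₐ[ℝ] A) : CF E →ₐ[ℂ] A where
  toFun a := φ a.re + Complex.I • φ a.im
  map_one' := by simp
  map_mul' a b := by
    simp only [Cx.mul_re, Cx.mul_im, map_sub, map_add, map_mul, add_mul, mul_add, smul_add,
      smul_mul_assoc, mul_smul_comm, smul_smul, Complex.I_mul_I, neg_smul, one_smul]
    abel
  map_zero' := by simp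
  map_add' a b := by
    simp only [Cx.add_re, Cx.add_im, map_add, smul_add]; abel
  commutes' z := by
    simp only [Cx.algebraMap_re, Cx.algebraMap_im, AlgHom.commutes]
    rw [IsScalarTower.algebraMap_apply ℝ ℂ A, IsScalarTower.algebraMap_apply ℝ ℂ A,
      Algebra.smul_def, ← map_mul, ← map_add]
    congr 1
    simp [mul_comm Complex.I]

theorem cxLift_apply (φ : Ext E →ₐ[ℝ] A) (a : CF E) :
    cxLift φ a = φ a.re + Complex.I • φ a.im := rfl

/-- universal property of `CF E` -/
def liftC (f : W E →ₗ[ℂ] A) (hf : ∀ l, f l * f l = 0) : CF E →ₐ[ℂ] A :=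
  cxLift (ExteriorAlgebra.lift ℝ ⟨(f.restrictScalars ℝ) ∘ₗ ofD, fun l => hf (ofD l)⟩)

@[simp] theorem liftC_ioC (f : W E →ₗ[ℂ] A) (hf : ∀ l, f l * f l = 0) (l : W E) :
    liftC f hf (ioC l) = f l := by
  have key : ∀ m : Module.Dual ℝ E, (ExteriorAlgebra.lift ℝ
      ⟨(f.restrictScalars ℝ) ∘ₗ ofD, fun l => hf (ofD l)⟩ : Ext E →ₐ[ℝ] A) (io m) = f (ofD m) :=
    fun m => ExteriorAlgebra.lift_ι_apply ℝ _ _ m
  rw [liftC, cxLift_apply, ioC_re, ioC_im, key, key]
  conv_rhs => rw [W_eq l]
  rw [map_add, map_smul]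

end lift

/-- `CF E` is the complex exterior algebra of the complex covectors -/
def equivX : CF E ≃ₐ[ℂ] ExteriorAlgebra ℂ (W E) :=
  AlgEquiv.ofAlgHom (liftC (ExteriorAlgebra.ι ℂ) ExteriorAlgebra.ι_sq_zero)
    (ExteriorAlgebra.lift ℂ ⟨ioC, ioC_sq⟩)
    (by ext l; simp) (algHom_extC fun l => by simp)

@[simp] theorem equivX_ioC (l : W E) : equivX (ioC l) = ExteriorAlgebra.ι ℂ l :=
  liftC_ioC _ ExteriorAlgebra.ι_sq_zero l

@[simp] theorem equivX_symm_ι (l : W E) : equivX.symm (ExteriorAlgebra.ι ℂ l) = ioC l := by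
  rw [AlgEquiv.symm_apply_eq, equivX_ioC]


/-- functoriality in complex linear maps of covectors -/
def mapC (M : W F →ₗ[ℂ] W E) : CF F →ₐ[ℂ] CF E := liftC (ioC ∘ₗ M) fun _ => ioC_sq _

@[simp] theorem mapC_ioC (M : W F →ₗ[ℂ] W E) (l : W F) : mapC M (ioC l) = ioC (M l) :=
  liftC_ioC _ _ l


@[simp] theorem mapC_id (c : CF E) : mapC LinearMap.id c = c := by
  have : mapC (LinearMap.id : W E →ₗ[ℂ] W E) = AlgHom.id ℂ _ := algHom_extC fun l => by simp
  exact AlgHom.congr_fun this c

/-- composition of covectors with a real linear map -/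
def pre (A : E →ₗ[ℝ] F) : W F →ₗ[ℂ] W E where
  toFun l := l ∘ₗ A
  map_add' _ _ := rfl
  map_smul' _ _ := rfl

@[simp] theorem pre_apply (A : E →ₗ[ℝ] F) (l : W F) (v : E) : pre A l v = l (A v) := rfl


@[simp] theorem pbC_ioC (A : E →ₗ[ℝ] F) (l : W F) : pbC A (ioC l) = ioC (pre A l) := by
  refine Cx.ext ?_ ?_
  · rw [pbC_re, ioC_re, ioC_re, pb_io]; rfl
  · rw [pbC_im, ioC_im, ioC_im, pb_io]; rfl

/-- `pbC` as a complex algebra map -/
def pbA (A : E →ₗ[ℝ] F) : CF F →ₐ[ℂ] CF E := { pbC A with commutes' := pbC_algebraMap A }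

@[simp] theorem pbA_apply (A : E →ₗ[ℝ] F) (c : CF F) : pbA A c = pbC A c := rfl

theorem pbC_eq_mapC (A : E →ₗ[ℝ] F) (c : CF F) : pbC A c = mapC (pre A) c := by
  have : pbA A = mapC (pre A) := algHom_extC fun l => by simp
  exact AlgHom.congr_fun this c


@[simp] theorem pbC_id' (c : CF E) : pbC LinearMap.id c = c := Cx.ext (pb_id _) (pb_id _)

/-- `invC` as a complex algebra map -/
def invA : CF E →ₐ[ℂ] CF E := { invC with commutes' := invC_algebraMap }

@[simp] theorem invA_apply (c : CF E) : invA c = invC c := rfl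

theorem invC_eq_mapC (c : CF E) : invC c = mapC (-LinearMap.id) c := by
  have : invA = mapC (-LinearMap.id : W E →ₗ[ℂ] W E) := algHom_extC fun l => by simp [invC_ioC]
  exact AlgHom.congr_fun this c


/-! ### conjugation -/

/-- conjugate covector -/
def cjW (l : W E) : W E := Complex.conjAe.toLinearMap ∘ₗ l

@[simp] theorem cjW_apply (l : W E) (v : E) : cjW l v = (starRingEnd ℂ) (l v) := rfl

@[simp] theorem cjW_cjW (l : W E) : cjW (cjW l) = l := by ext v; simp

theorem cjW_add (l m : W E) : cjW (l + m) = cjW l + cjW m := by ext v; simp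
theorem cjW_sub (l m : W E) : cjW (l - m) = cjW l - cjW m := by ext v; simp
theorem cjW_smul (z : ℂ) (l : W E) : cjW (z • l) = (starRingEnd ℂ) z • cjW l := by ext v; simp
@[simp] theorem cjW_ofD (l : Module.Dual ℝ E) : cjW (ofD l) = ofD l := by ext v; simp

theorem conj_ioC (l : W E) : Cx.conj (ioC l) = ioC (cjW l) := by
  refine Cx.ext ?_ ?_
  · rw [Cx.conj_re, ioC_re, ioC_re]; congr 1
  · rw [Cx.conj_im, ioC_im, ioC_im, ← map_neg]; congr 1

theorem conj_smul (z : ℂ) (a : CF E) : Cx.conj (z • a) = (starRingEnd ℂ) z • Cx.conj a := by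
  refine Cx.ext ?_ ?_
  · simp
  · simp; abel

theorem conj_rsmul (r : ℝ) (a : CF E) : Cx.conj (r • a) = r • Cx.conj a := by
  refine Cx.ext ?_ ?_ <;> simp

theorem conj_algebraMap (z : ℂ) :
    Cx.conj (algebraMap ℂ (CF E) z) = algebraMap ℂ (CF E) ((starRingEnd ℂ) z) := by
  refine Cx.ext ?_ ?_ <;> simp


theorem conj_pbC (A : E →ₗ[ℝ] F) (c : CF F) : Cx.conj (pbC A c) = pbC A (Cx.conj c) := by
  refine Cx.ext ?_ ?_ <;> simp

/-- the conjugate of a complex linear map of covectors -/
def cjM (M : W F →ₗ[ℂ] W E) : W F →ₗ[ℂ] W E where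
  toFun l := cjW (M (cjW l))
  map_add' l m := by rw [cjW_add, map_add, cjW_add]
  map_smul' z l := by rw [cjW_smul, map_smul, cjW_smul]; simp

theorem cjM_apply (M : W F →ₗ[ℂ] W E) (l : W F) : cjM M l = cjW (M (cjW l)) := rfl


/-! ### contraction -/

/-- contraction of a complex form with a real vector -/
def iiC : E →ₗ[ℝ] CF E →ₗ[ℂ] CF E where
  toFun v :=
    { toFun := fun a => ⟨ii v a.re, ii v a.im⟩
      map_add' := fun a b => by refine Cx.ext ?_ ?_ <;> simp
      map_smul' := fun z a => by refine Cx.ext ?_ ?_ <;> simp }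
  map_add' v w := by
    refine LinearMap.ext fun a => Cx.ext ?_ ?_ <;> simp
  map_smul' r v := by
    refine LinearMap.ext fun a => Cx.ext ?_ ?_ <;> simp

@[simp] theorem iiC_re (v : E) (a : CF E) : (iiC v a).re = ii v a.re := rfl
@[simp] theorem iiC_im (v : E) (a : CF E) : (iiC v a).im = ii v a.im := rfl

@[simp] theorem iiC_algebraMap (v : E) (z : ℂ) : iiC v (algebraMap ℂ (CF E) z) = 0 := by
  refine Cx.ext ?_ ?_ <;> simp

@[simp] theorem iiC_one (v : E) : iiC v (1 : CF E) = 0 := by
  refine Cx.ext ?_ ?_ <;> simp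

@[simp] theorem iiC_ioC (v : E) (l : W E) : iiC v (ioC l) = algebraMap ℂ (CF E) (l v) := by
  refine Cx.ext ?_ ?_ <;> simp [ioC_re, ioC_im]

theorem iiC_mul (v : E) (a b : CF E) : iiC v (a * b) = iiC v a * b + invC a * iiC v b := by
  refine Cx.ext ?_ ?_
  · simp only [iiC_re, iiC_im, Cx.mul_re, Cx.add_re, map_sub, ii_mul, invC_re, invC_im]; abel
  · simp only [iiC_re, iiC_im, Cx.mul_im, Cx.add_im, map_add, ii_mul, invC_re, invC_im]; abel

theorem iiC_ioC_mul (v : E) (l : W E) (c : CF E) :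
    iiC v (ioC l * c) = l v • c - ioC l * iiC v c := by
  rw [iiC_mul, iiC_ioC, invC_ioC, neg_mul, ← Algebra.smul_def, sub_eq_add_neg]





theorem iiC_pbC (A : E →ₗ[ℝ] F) (v : E) (c : CF F) : iiC v (pbC A c) = pbC A (iiC (A v) c) :=
  Cx.ext (ii_pb _ _ _) (ii_pb _ _ _)




/-- contraction with a complex vector (a complex linear functional on covectors) -/
def ctr : Module.Dual ℂ (W E) →ₗ[ℂ] CF E →ₗ[ℂ] CF E :=
  (LinearEquiv.conj (equivX (E := E)).symm.toLinearEquiv).toLinearMap ∘ₗ
    CliffordAlgebra.contractLeft (Q := (0 : QuadraticForm ℂ (W E)))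

theorem ctr_def (φ : Module.Dual ℂ (W E)) (a : CF E) : ctr φ a = equivX.symm
    (CliffordAlgebra.contractLeft (Q := (0 : QuadraticForm ℂ (W E))) φ (equivX a)) := rfl

theorem ctr_ioC_mul (φ : Module.Dual ℂ (W E)) (l : W E) (c : CF E) :
    ctr φ (ioC l * c) = φ l • c - ioC l * ctr φ c := by
  have h := CliffordAlgebra.contractLeft_ι_mul (Q := (0 : QuadraticForm ℂ (W E))) φ l (equivX c)
  rw [ctr_def, ctr_def, map_mul, equivX_ioC, AlgEquiv.symm_apply_eq, map_sub, map_smul,
    map_mul equivX, equivX_ioC, AlgEquiv.apply_symm_apply]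
  exact h

@[simp] theorem ctr_algebraMap (φ : Module.Dual ℂ (W E)) (z : ℂ) :
    ctr φ (algebraMap ℂ (CF E) z) = 0 := by
  have h := CliffordAlgebra.contractLeft_algebraMap (0 : QuadraticForm ℂ (W E)) φ z
  rw [ctr_def, AlgEquiv.commutes, AlgEquiv.symm_apply_eq, map_zero]
  exact h

@[simp] theorem ctr_one (φ : Module.Dual ℂ (W E)) : ctr φ (1 : CF E) = 0 := by
  simpa using ctr_algebraMap φ 1

@[simp] theorem ctr_ioC (φ : Module.Dual ℂ (W E)) (l : W E) :
    ctr φ (ioC l) = algebraMap ℂ (CF E) (φ l) := by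
  have := ctr_ioC_mul φ l 1
  rwa [mul_one, ctr_one, mul_zero, sub_zero, ← Algebra.algebraMap_eq_smul_one] at this






/-- a real vector as a complex vector -/
def evW (v : E) : Module.Dual ℂ (W E) where
  toFun l := l v
  map_add' _ _ := rfl
  map_smul' _ _ := rfl

@[simp] theorem evW_apply (v : E) (l : W E) : evW v l = l v := rfl

theorem iiC_eq_ctr (v : E) (c : CF E) : iiC v c = ctr (evW v) c := by
  induction c using indC with
  | h0 z => simp
  | hadd x y hx hy => simp only [map_add, hx, hy]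
  | hmul x l hx => rw [iiC_ioC_mul, ctr_ioC_mul, hx, evW_apply]

/-! ### evaluation -/

variable (E) in
/-- evaluation of a complex form on `q` vectors -/
def evC (q : ℕ) (v : Fin q → E) : CF E →ₗ[ℂ] ℂ where
  toFun a := (evA E q a.re v : ℂ) + (evA E q a.im v : ℂ) * Complex.I
  map_add' a b := by simp; ring
  map_smul' z a := by
    simp only [Cx.csmul_re, Cx.csmul_im, map_sub, map_add, map_smul, AlternatingMap.sub_apply,
      AlternatingMap.add_apply, AlternatingMap.smul_apply, smul_eq_mul, RingHom.id_apply]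
    apply Complex.ext <;> simp

theorem evC_apply (q : ℕ) (v : Fin q → E) (a : CF E) :
    evC E q v a = (evA E q a.re v : ℂ) + (evA E q a.im v : ℂ) * Complex.I := rfl

theorem evC_re (q : ℕ) (v : Fin q → E) (a : CF E) : (evC E q v a).re = evA E q a.re v := by
  simp [evC_apply]

theorem evC_im (q : ℕ) (v : Fin q → E) (a : CF E) : (evC E q v a).im = evA E q a.im v := by
  simp [evC_apply]

theorem evC_pbC (q : ℕ) (A : E →ₗ[ℝ] F) (c : CF F) (v : Fin q → E) :
    evC E q v (pbC A c) = evC F q (fun i => A (v i)) c := by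
  simp only [evC_apply, pbC_re, pbC_im, evA_pb]

theorem evC_cons (q : ℕ) (c : CF E) (v : E) (w : Fin q → E) :
    evC E (q + 1) (Matrix.vecCons v w) c = evC E q w (iiC v c) := by
  simp only [evC_apply, evA_ii, iiC_re, iiC_im]





end basic

end Crest.Agent.X262.Frm
end
end

-- ▼ part X262/Frm/Grd

/-! Row 262, package Frm (helper58).  Grd: the bigrading of `CF E` defined by a projection `P` of
the complex covectors (`P l` has bidegree `(1,0)`, `l - P l` has bidegree `(0,1)`).  Special cases: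
the degree (`P = 1`), Hodge types (file `Typ`), the bidegree on a product. -/

set_option autoImplicit false
set_option linter.unusedSectionVars false
set_option linter.unusedSimpArgs false

open scoped BigOperators
open Module AddMonoidAlgebra

noncomputable section

namespace Crest.Agent.X262.Frm

open Crest.Agent.R208.F Crest.Agent.R208.CW

section grd
variable {E F : Type*} [AddCommGroup E] [Module ℝ E] [AddCommGroup F] [Module ℝ F]

/-- the decomposition into bidegrees, as an algebra map -/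
def dec (P : Module.End ℂ (W E)) : CF E →ₐ[ℂ] AddMonoidAlgebra (CF E) (ℕ × ℕ) :=
  liftC (lsingle ((1, 0) : ℕ × ℕ) ∘ₗ ioC ∘ₗ P + lsingle ((0, 1) : ℕ × ℕ) ∘ₗ ioC ∘ₗ (1 - P)) fun l => by
    simp only [LinearMap.add_apply, LinearMap.comp_apply, lsingle_apply, add_mul, mul_add,
      single_mul_single, ioC_sq, single_zero, zero_add, add_zero]
    rw [add_comm ((0, 1) : ℕ × ℕ), ← single_add, ioC_add_swap, single_zero]

variable {P : Module.End ℂ (W E)} {p q p' q' : ℕ} {a b : CF E}

theorem dec_ioC (P : Module.End ℂ (W E)) (l : W E) :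
    dec P (ioC l) = single (1, 0) (ioC (P l)) + single (0, 1) (ioC (l - P l)) := by
  rw [dec, liftC_ioC]; rfl

/-- the component of bidegree `(p,q)` -/
def prj (P : Module.End ℂ (W E)) (p q : ℕ) : CF E →ₗ[ℂ] CF E where
  toFun a := (dec P a).coeff (p, q)
  map_add' a b := by rw [map_add]; rfl
  map_smul' z a := by rw [map_smul]; rfl

theorem prj_def (P : Module.End ℂ (W E)) (p q : ℕ) (a : CF E) :
    prj P p q a = (dec P a).coeff (p, q) := rfl

theorem prj_algebraMap (P : Module.End ℂ (W E)) (p q : ℕ) (z : ℂ) :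
    prj P p q (algebraMap ℂ (CF E) z) = if p = 0 ∧ q = 0 then algebraMap ℂ (CF E) z else 0 := by
  rw [prj_def, AlgHom.commutes]
  change (single (0 : ℕ × ℕ) (algebraMap ℂ (CF E) z)).coeff (p, q) = _
  rw [coeff_single, Finsupp.single_apply]
  simp [Prod.ext_iff, eq_comm]

theorem coeff_10 (c : CF E) (x : AddMonoidAlgebra (CF E) (ℕ × ℕ)) (p q : ℕ) :
    (single ((1, 0) : ℕ × ℕ) c * x).coeff (p, q) = if p = 0 then 0 else c * x.coeff (p - 1, q) := by
  cases p with
  | zero =>
    rw [if_pos rfl]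
    exact coeff_single_mul_of_forall_add_ne _ _ fun d h => by simp [Prod.ext_iff] at h
  | succ p =>
    rw [if_neg (Nat.succ_ne_zero p), Nat.add_sub_cancel, ← coeff_single_mul_add x c (1, 0) (p, q)]
    congr 1
    simp [add_comm]

theorem coeff_01 (c : CF E) (x : AddMonoidAlgebra (CF E) (ℕ × ℕ)) (p q : ℕ) :
    (single ((0, 1) : ℕ × ℕ) c * x).coeff (p, q) = if q = 0 then 0 else c * x.coeff (p, q - 1) := by
  cases q with
  | zero =>
    rw [if_pos rfl]
    exact coeff_single_mul_of_forall_add_ne _ _ fun d h => by simp [Prod.ext_iff] at h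
  | succ q =>
    rw [if_neg (Nat.succ_ne_zero q), Nat.add_sub_cancel, ← coeff_single_mul_add x c (0, 1) (p, q)]
    congr 1
    simp [add_comm]

/-- the recursion for the components -/
theorem prj_ioC_mul (P : Module.End ℂ (W E)) (p q : ℕ) (l : W E) (a : CF E) :
    prj P p q (ioC l * a) = (if p = 0 then 0 else ioC (P l) * prj P (p - 1) q a)
      + (if q = 0 then 0 else ioC (l - P l) * prj P p (q - 1) a) := by
  rw [prj_def, map_mul, dec_ioC, add_mul, coeff_add, Finsupp.add_apply, coeff_10, coeff_01]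
  rfl


/-- forms of bidegree `(p,q)` -/
def Ty (P : Module.End ℂ (W E)) (p q : ℕ) : Submodule ℂ (CF E) where
  carrier := {a | dec P a = single (p, q) a}
  add_mem' {a b} ha hb := by
    change dec P (a + b) = _
    rw [map_add, ha, hb, single_add]
  zero_mem' := by change dec P 0 = _; rw [map_zero, single_zero]
  smul_mem' z a ha := by
    change dec P (z • a) = _
    rw [map_smul, ha, smul_single]

theorem mem_Ty : a ∈ Ty P p q ↔ dec P a = single (p, q) a := Iff.rfl

theorem prj_of_mem (h : a ∈ Ty P p q) (p' q' : ℕ) :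
    prj P p' q' a = if p = p' ∧ q = q' then a else 0 := by
  rw [prj_def, mem_Ty.1 h, coeff_single, Finsupp.single_apply]
  simp [Prod.ext_iff]

theorem prj_self (h : a ∈ Ty P p q) : prj P p q a = a := by rw [prj_of_mem h, if_pos ⟨rfl, rfl⟩]

theorem prj_ne (h : a ∈ Ty P p q) (hne : ¬ (p = p' ∧ q = q')) : prj P p' q' a = 0 := by
  rw [prj_of_mem h, if_neg hne]

theorem Ty_mul (ha : a ∈ Ty P p q) (hb : b ∈ Ty P p' q') : a * b ∈ Ty P (p + p') (q + q') := by
  rw [mem_Ty, map_mul, mem_Ty.1 ha, mem_Ty.1 hb, single_mul_single]; rfl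

theorem Ty_algebraMap (P : Module.End ℂ (W E)) (z : ℂ) : algebraMap ℂ (CF E) z ∈ Ty P 0 0 := by
  rw [mem_Ty, AlgHom.commutes]; rfl

theorem Ty_one (P : Module.End ℂ (W E)) : (1 : CF E) ∈ Ty P 0 0 := by
  simpa using Ty_algebraMap P 1


theorem Ty_ioC_10 {l : W E} (h : P l = l) : ioC l ∈ Ty P 1 0 := by
  rw [mem_Ty, dec_ioC, h, sub_self, map_zero, single_zero, add_zero]

theorem Ty_ioC_01 {l : W E} (h : P l = 0) : ioC l ∈ Ty P 0 1 := by
  rw [mem_Ty, dec_ioC, h, sub_zero, map_zero, single_zero, zero_add]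

theorem Ty_congr (h : a ∈ Ty P p q) (hp : p = p') (hq : q = q') : a ∈ Ty P p' q' := by
  subst hp hq; exact h

/-- multiplication by a homogeneous form shifts the components -/
theorem prj_mul_left (ha : a ∈ Ty P p q) (p' q' : ℕ) (b : CF E) :
    prj P (p + p') (q + q') (a * b) = a * prj P p' q' b := by
  rw [prj_def, map_mul, mem_Ty.1 ha]
  exact coeff_single_mul_add _ a (p, q) (p', q')




theorem idem_apply (hP : P * P = P) (l : W E) : P (P l) = P l := LinearMap.congr_fun hP l

theorem prj_mem (hP : P * P = P) (p q : ℕ) (a : CF E) : prj P p q a ∈ Ty P p q := by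
  induction a using indC generalizing p q with
  | h0 z =>
    rw [prj_algebraMap]
    split_ifs with h
    · rw [h.1, h.2]; exact Ty_algebraMap P z
    · exact zero_mem _
  | hadd x y hx hy => rw [map_add]; exact add_mem (hx p q) (hy p q)
  | hmul x l hx =>
    rw [prj_ioC_mul]
    refine add_mem ?_ ?_
    · split_ifs with h
      · exact zero_mem _
      · exact Ty_congr (Ty_mul (Ty_ioC_10 (idem_apply hP l)) (hx _ _)) (by omega) (by omega)
    · split_ifs with h
      · exact zero_mem _
      · exact Ty_congr (Ty_mul (Ty_ioC_01 (by rw [map_sub, idem_apply hP, sub_self])) (hx _ _))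
          (by omega) (by omega)


theorem mem_Ty_iff (hP : P * P = P) : a ∈ Ty P p q ↔ prj P p q a = a :=
  ⟨prj_self, fun h => h ▸ prj_mem hP p q a⟩

/-- scaling the two kinds of covectors -/
theorem mapC_scale (P : Module.End ℂ (W E)) (s t : ℂ) (a : CF E) :
    mapC (s • P + t • (1 - P)) a = (dec P a).coeff.sum fun x c => (s ^ x.1 * t ^ x.2) • c := by
  let g : Multiplicative (ℕ × ℕ) →* CF E :=
    { toFun := fun x => algebraMap ℂ (CF E) (s ^ x.toAdd.1 * t ^ x.toAdd.2)
      map_one' := by simp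
      map_mul' := fun x y => by
        rw [← map_mul]; congr 1
        simp only [toAdd_mul, Prod.fst_add, Prod.snd_add, pow_add]; ring }
  let ε : AddMonoidAlgebra (CF E) (ℕ × ℕ) →ₐ[ℂ] CF E :=
    liftNCAlgHom (AlgHom.id ℂ _) g fun x y =>
      (Algebra.commutes (s ^ y.toAdd.1 * t ^ y.toAdd.2) x).symm
  have hε : ∀ (x : ℕ × ℕ) (c : CF E), ε (single x c) = (s ^ x.1 * t ^ x.2) • c := by
    intro x c
    change liftNC _ g (single x c) = _
    rw [liftNC_single, Algebra.smul_def, Algebra.commutes]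
    rfl
  have h1 : mapC (s • P + t • (1 - P)) = ε.comp (dec P) := algHom_extC fun l => by
    rw [AlgHom.comp_apply, dec_ioC, map_add, hε, hε, mapC_ioC]
    simp
  rw [h1, AlgHom.comp_apply]
  conv_lhs => rw [← sum_coeff_single (dec P a)]
  rw [Finsupp.sum, map_sum]
  exact Finset.sum_congr rfl fun x _ => hε _ _

theorem mapC_scale_of_mem (h : a ∈ Ty P p q) (s t : ℂ) :
    mapC (s • P + t • (1 - P)) a = (s ^ p * t ^ q) • a := by
  rw [mapC_scale, mem_Ty.1 h, coeff_single, Finsupp.sum_single_index (by simp)]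

theorem mapC_scale_sum (s t : ℂ) {S : Finset (ℕ × ℕ)} (hS : ∀ x ∉ S, prj P x.1 x.2 a = 0) :
    mapC (s • P + t • (1 - P)) a = ∑ x ∈ S, (s ^ x.1 * t ^ x.2) • prj P x.1 x.2 a := by
  rw [mapC_scale, Finsupp.sum_of_support_subset _ (s := S) _ _ (by simp)]
  · rfl
  · intro x hx
    by_contra h
    exact (Finsupp.mem_support_iff.1 hx) (hS x h)

/-- a form is the sum of its components -/
theorem sum_prj {S : Finset (ℕ × ℕ)} (hS : ∀ x ∉ S, prj P x.1 x.2 a = 0) :
    ∑ x ∈ S, prj P x.1 x.2 a = a := by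
  have := mapC_scale_sum (P := P) 1 1 hS
  simp only [one_smul, one_pow, mul_one, add_sub_cancel] at this
  rw [← this]
  exact mapC_id a

theorem ext_prj (P : Module.End ℂ (W E)) (h : ∀ p q, prj P p q a = prj P p q b) : a = b := by
  have h0 : ∀ x ∉ (∅ : Finset (ℕ × ℕ)), prj P x.1 x.2 (a - b) = 0 := fun x _ => by
    rw [map_sub, h, sub_self]
  have := sum_prj h0
  rw [Finset.sum_empty] at this
  exact sub_eq_zero.1 this.symm

/-- induction on homogeneous forms -/
theorem ind_Ty (hP : P * P = P) {C : CF E → Prop} (h0 : C 0) (hadd : ∀ x y, C x → C y → C (x + y))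
    (h : ∀ p q, ∀ a ∈ Ty P p q, C a) (a : CF E) : C a := by
  rw [← sum_prj (P := P) (a := a) (S := (dec P a).coeff.support)
    fun x hx => Finsupp.notMem_support_iff.1 hx]
  exact Finset.sum_induction _ C hadd h0 fun x _ => h _ _ _ (prj_mem hP _ _ _)

theorem invC_of_mem (h : a ∈ Ty P p q) : invC a = (-1 : ℂ) ^ (p + q) • a := by
  rw [pow_add, ← mapC_scale_of_mem h, invC_eq_mapC]
  congr 2
  ext l v; simp; ring



/-- naturality -/
theorem prj_mapC {Q : Module.End ℂ (W F)} {M : W F →ₗ[ℂ] W E} (h : ∀ l, P (M l) = M (Q l))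
    (p q : ℕ) (c : CF F) : prj P p q (mapC M c) = mapC M (prj Q p q c) := by
  induction c using indC generalizing p q with
  | h0 z => rw [AlgHom.commutes, prj_algebraMap, prj_algebraMap]; split_ifs <;> simp
  | hadd x y hx hy => simp only [map_add, hx, hy]
  | hmul x l hx =>
    rw [map_mul, mapC_ioC, prj_ioC_mul, prj_ioC_mul, map_add, hx, hx]
    congr 1 <;> split_ifs <;> simp [h]

theorem Ty_mapC {Q : Module.End ℂ (W F)} {M : W F →ₗ[ℂ] W E} (h : ∀ l, P (M l) = M (Q l))
    {c : CF F} (hc : c ∈ Ty Q p q) : mapC M c ∈ Ty P p q := by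
  rw [mem_Ty]
  ext x : 2
  rw [coeff_single, Finsupp.single_apply, ← prj_def P x.1 x.2, prj_mapC h, prj_of_mem hc]
  simp only [Prod.ext_iff]
  split_ifs <;> simp



theorem prj_swap (P : Module.End ℂ (W E)) (p q : ℕ) (c : CF E) :
    prj (1 - P) p q c = prj P q p c := by
  induction c using indC generalizing p q with
  | h0 z => rw [prj_algebraMap, prj_algebraMap]; simp only [and_comm]
  | hadd x y hx hy => simp only [map_add, hx, hy]
  | hmul x l hx =>
    rw [prj_ioC_mul, prj_ioC_mul, hx, hx, add_comm]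
    simp

theorem conj_prj (P : Module.End ℂ (W E)) (p q : ℕ) (c : CF E) :
    Cx.conj (prj P p q c) = prj (cjM P) p q (Cx.conj c) := by
  induction c using indC generalizing p q with
  | h0 z =>
    rw [conj_algebraMap, prj_algebraMap, prj_algebraMap]
    split_ifs
    · exact conj_algebraMap z
    · exact map_zero _
  | hadd x y hx hy => simp only [map_add, hx, hy]
  | hmul x l hx =>
    rw [map_mul Cx.conj, conj_ioC, prj_ioC_mul, prj_ioC_mul, map_add]
    congr 1 <;> split_ifs <;> simp [hx, conj_ioC, cjM_apply, cjW_sub]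

/-- contraction with a complex vector killing the covectors of bidegree `(0,1)` -/
theorem prj_ctr_10 {φ : Module.Dual ℂ (W E)} (h : ∀ l, φ (P l) = φ l) (p q : ℕ)
    (c : CF E) : prj P p q (ctr φ c) = ctr φ (prj P (p + 1) q c) := by
  induction c using indC generalizing p q with
  | h0 z => rw [ctr_algebraMap, prj_algebraMap, map_zero, if_neg (by omega), map_zero]
  | hadd x y hx hy => simp only [map_add, hx, hy]
  | hmul x l hx =>
    rw [ctr_ioC_mul, map_sub, map_smul, prj_ioC_mul, prj_ioC_mul, map_add, if_neg (Nat.succ_ne_zero p),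
      Nat.add_sub_cancel, ctr_ioC_mul, h, hx, hx]
    have e1 : (if p = 0 then 0 else ioC (P l) * ctr φ (prj P (p - 1 + 1) q x))
        = ioC (P l) * ctr φ (prj P p q x) := by
      split_ifs with h0
      · subst h0
        have : ∀ (q : ℕ) (y : CF E), ctr φ (prj P 0 q y) = 0 := by
          intro q y
          induction y using indC generalizing q with
          | h0 z => rw [prj_algebraMap]; split_ifs <;> simp
          | hadd x y hx hy => simp only [map_add, hx, hy, add_zero]
          | hmul x l hx =>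
            rw [prj_ioC_mul, if_pos rfl, zero_add]
            split_ifs
            · exact map_zero _
            · rw [ctr_ioC_mul, hx, map_sub, h, sub_self, zero_smul, mul_zero, sub_zero]
        rw [this, mul_zero]
      · rw [Nat.sub_add_cancel (by omega)]
    rw [e1]
    split_ifs with h0
    · simp
    · rw [ctr_ioC_mul, map_sub φ, h, sub_self, zero_smul]; abel

theorem prj_ctr_01 {φ : Module.Dual ℂ (W E)} (h : ∀ l, φ (P l) = 0) (p q : ℕ)
    (c : CF E) : prj P p q (ctr φ c) = ctr φ (prj P p (q + 1) c) := by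
  rw [← prj_swap, ← prj_swap P]
  exact prj_ctr_10 (fun l => by simp [h]) q p c



theorem Ty_ctr_01 {φ : Module.Dual ℂ (W E)} (hP : P * P = P) (h : ∀ l, φ (P l) = 0)
    (ha : a ∈ Ty P p (q + 1)) : ctr φ a ∈ Ty P p q := by
  rw [mem_Ty_iff hP, prj_ctr_01 h, prj_self ha]


theorem ctr_01_of_mem {φ : Module.Dual ℂ (W E)} (h : ∀ l, φ (P l) = 0)
    (ha : a ∈ Ty P p 0) : ctr φ a = 0 :=
  ext_prj P fun p' q' => by rw [prj_ctr_01 h, prj_ne ha (by omega), map_zero, map_zero]

theorem prj_zero_zero (P : Module.End ℂ (W E)) (a : CF E) :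
    ∃ z : ℂ, prj P 0 0 a = algebraMap ℂ (CF E) z := by
  induction a using indC with
  | h0 z => exact ⟨z, by rw [prj_algebraMap, if_pos ⟨rfl, rfl⟩]⟩
  | hadd x y hx hy =>
    obtain ⟨z, hz⟩ := hx
    obtain ⟨w, hw⟩ := hy
    exact ⟨z + w, by rw [map_add, map_add, hz, hw]⟩
  | hmul x l _ => exact ⟨0, by rw [prj_ioC_mul, if_pos rfl, if_pos rfl, add_zero, map_zero]⟩

theorem mem_Ty_zero : a ∈ Ty P 0 0 ↔ ∃ z : ℂ, a = algebraMap ℂ (CF E) z :=
  ⟨fun h => by rw [← prj_self h]; exact prj_zero_zero P a,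
    fun ⟨z, hz⟩ => hz ▸ Ty_algebraMap P z⟩

/-! ### vanishing above the rank -/

theorem pow_map_ioC_eq_bot (A : Submodule ℂ (W E)) [FiniteDimensional ℂ A] {k : ℕ}
    (hk : finrank ℂ A < k) : (A.map ioC) ^ k = ⊥ := by
  let φ : ExteriorAlgebra ℂ A →ₐ[ℂ] CF E := ExteriorAlgebra.lift ℂ ⟨ioC ∘ₗ A.subtype, fun l => ioC_sq _⟩
  have h1 : A.map ioC = (LinearMap.range (ExteriorAlgebra.ι ℂ (M := A))).map φ.toLinearMap := by
    rw [← LinearMap.range_comp]
    have : φ.toLinearMap ∘ₗ ExteriorAlgebra.ι ℂ = ioC ∘ₗ A.subtype :=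
      ExteriorAlgebra.ι_comp_lift ℂ _ _
    rw [this, LinearMap.range_comp, Submodule.range_subtype]
  have h2 : (⋀[ℂ]^k A : Submodule ℂ (ExteriorAlgebra ℂ A)) = ⊥ := by
    rw [← Submodule.finrank_eq_zero, exteriorPower.finrank_eq, Nat.choose_eq_zero_of_lt hk]
  rw [h1, ← Submodule.map_pow]
  change Submodule.map φ.toLinearMap (⋀[ℂ]^k A) = ⊥
  rw [h2, Submodule.map_bot]

theorem prj_mem_pow (P : Module.End ℂ (W E)) (p q : ℕ) (a : CF E) :
    prj P p q a ∈ ((LinearMap.range P).map ioC) ^ p * (⊤ : Submodule ℂ (CF E)) := by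
  set A := (LinearMap.range P).map ioC with hA
  have par : ∀ k, ∀ u ∈ A ^ k, invC u = (-1 : ℂ) ^ k • u := by
    intro k u hu
    induction hu using Submodule.pow_induction_on_left' with
    | algebraMap r => simp
    | add x y i _ _ hx hy => rw [map_add, hx, hy, smul_add]
    | mem_mul m hm i x _ hx =>
      obtain ⟨l, -, rfl⟩ := hm
      rw [map_mul, hx, invC_ioC, pow_succ, mul_smul_comm, neg_mul, mul_neg_one, neg_smul, smul_neg]
  have lm : ∀ k (l : W E), ∀ x ∈ A ^ k * (⊤ : Submodule ℂ (CF E)),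
      ioC l * x ∈ A ^ k * (⊤ : Submodule ℂ (CF E)) := by
    intro k l x hx
    refine Submodule.mul_induction_on hx (fun u hu y _ => ?_) fun x y hx hy => ?_
    · rw [← mul_assoc, ioC_mul, par k u hu, mul_assoc, smul_mul_assoc]
      exact Submodule.smul_mem _ _ (Submodule.mul_mem_mul hu trivial)
    · rw [mul_add]; exact add_mem hx hy
  induction a using indC generalizing p q with
  | h0 z =>
    rw [prj_algebraMap]
    split_ifs with h
    · rw [h.1, pow_zero, one_mul]; trivial
    · exact zero_mem _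
  | hadd x y hx hy => rw [map_add]; exact add_mem (hx p q) (hy p q)
  | hmul x l hx =>
    rw [prj_ioC_mul]
    refine add_mem ?_ ?_
    · split_ifs with h
      · exact zero_mem _
      · obtain ⟨p, rfl⟩ := Nat.exists_eq_succ_of_ne_zero h
        rw [pow_succ', mul_assoc]
        exact Submodule.mul_mem_mul ⟨P l, ⟨l, rfl⟩, rfl⟩ (hx _ _)
    · split_ifs with h
      · exact zero_mem _
      · exact lm _ _ _ (hx _ _)

variable [FiniteDimensional ℝ E]

instance : FiniteDimensional ℂ (W E) := Module.Finite.of_restrictScalars_finite ℝ ℂ (W E)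

theorem prj_eq_zero_left (h : finrank ℂ (LinearMap.range P) < p) (q : ℕ) (a : CF E) :
    prj P p q a = 0 := by
  have := prj_mem_pow P p q a
  rwa [pow_map_ioC_eq_bot _ h, Submodule.bot_mul, Submodule.mem_bot] at this

theorem prj_eq_zero_right (h : finrank ℂ (LinearMap.range (1 - P)) < q) (p : ℕ) (a : CF E) :
    prj P p q a = 0 := by
  rw [← prj_swap]; exact prj_eq_zero_left h p a

theorem finrank_W : finrank ℂ (W E) = finrank ℝ E := by
  have h1 : finrank ℝ (W E) = finrank ℝ E * 2 := by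
    rw [Module.finrank_linearMap, Complex.finrank_real_complex]
  have h2 := Module.finrank_mul_finrank ℝ ℂ (W E)
  rw [Complex.finrank_real_complex] at h2
  omega

variable (E) in
/-- a box containing all bidegrees that occur -/
def box : Finset (ℕ × ℕ) := Finset.range (finrank ℝ E + 1) ×ˢ Finset.range (finrank ℝ E + 1)



end grd

end Crest.Agent.X262.Frm
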